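import Vale.Agent.P146.Anti.Press
import Vale.Agent.P146.Main

/-!
# P146: the fluctuations diverge in law

The slope along the test field is nonnegative and, with high probability, of the order of the
harmonic sum, while its cost grows only like the square root of that sum; so short intervals of any
fixed length receive vanishing probability.
-/

open MeasureTheory Real Filter Topology Finset Polynomial

namespace Vale.Agent.P146

/-- Every interval of a fixed length receives vanishing probability below the critical temperature. -/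
def DivergeStmt : Prop :=
  ∀ β : ℝ, 1 < β → ∀ L δ : ℝ, 0 < δ → ∀ᶠ n in atTop, ∀ x : ℝ,
    (P150.disorder n).real {g | |freeEnergy n β g - x| ≤ L} ≤ δ

theorem field_eq_sum (A : ℕ) :
    field A = ∑ a ∈ range (2 * A + 1),
      Polynomial.C (if Even a then 1 / (((a / 2 : ℕ) : ℝ) + 1) else 0) * cheb a := by
  refine Polynomial.funext fun t => ?_
  simp only [eval_finsetSum, eval_mul, eval_C, field_eval]
  rw [sum_even_range _ (fun a ha => by simp [Nat.not_even_iff_odd.2 ha])]
  exact sum_congr rfl fun i _ => by simp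

theorem divergeStmt_of (hD : MargStmt) (hT : TailStmt) (hG : DiagStmt) : DivergeStmt := by
  intro β hβ L₀ δ hδ
  have hβ0 : (0 : ℝ) < β := by linarith
  set L := max L₀ 1 with hLd
  have hL : 0 < L + β := by linarith [le_max_right L₀ 1]
  obtain ⟨A, hA : max 1 ((384 * (L + β) / δ) ^ 2) ≤ ∑ i ∈ range (A + 1), 1 / ((i : ℝ) + 1)⟩ :=
    ((tendsto_sum_range_one_div_nat_succ_atTop.comp (tendsto_add_atTop_nat 1)).eventually
      (eventually_ge_atTop (max 1 ((384 * (L + β) / δ) ^ 2)))).exists
  set H := ∑ i ∈ range (A + 1), 1 / ((i : ℝ) + 1) with hH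
  have hH1 : 1 ≤ H := (le_max_left _ _).trans hA
  obtain ⟨x, hxS, hx0, hx1⟩ : ∃ x : ℝ, H / 2 < ∑ i ∈ range (A + 1), x ^ (2 * i + 1) / ((i : ℝ) + 1)
      ∧ 0 < x ∧ x < 1 := by
    have hc : Continuous fun x : ℝ => ∑ i ∈ range (A + 1), x ^ (2 * i + 1) / ((i : ℝ) + 1) := by fun_prop
    have hlt : H / 2 < ∑ i ∈ range (A + 1), (1 : ℝ) ^ (2 * i + 1) / ((i : ℝ) + 1) := by
      simp only [one_pow, ← hH]; linarith
    have hev := (hc.continuousAt.eventually (Ioi_mem_nhds hlt)).filter_mono
      (nhdsWithin_le_nhds (s := Set.Iio 1))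
    exact ((hev.and ((Ioo_mem_nhdsLT (show (0 : ℝ) < 1 by norm_num)))).exists).imp
      fun x hx => ⟨hx.1, hx.2.1, hx.2.2⟩
  set c : ℕ → ℝ := fun a => if Even a then 1 / (((a / 2 : ℕ) : ℝ) + 1) else 0 with hc
  have hnorm : ∑ a ∈ range (2 * A + 1), c a ^ 2 * ((a : ℝ) + 1) ≤ 2 * H := by
    rw [sum_even_range _ (fun a ha => by simp [hc, Nat.not_even_iff_odd.2 ha]), hH, mul_sum]
    refine sum_le_sum fun i _ => ?_
    have hi : (0 : ℝ) < (i : ℝ) + 1 := by positivity
    rw [show c (2 * i) = 1 / ((i : ℝ) + 1) by simp [hc], Nat.cast_mul, Nat.cast_ofNat, div_pow, one_pow,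
      mul_one_div, div_mul_eq_mul_div, one_mul, div_le_div_iff₀ (by positivity) hi]
    nlinarith
  filter_upwards [hT β (L + β) (H / 8) H (2 * A + 1) c (field A) hβ0 hL (by linarith) (by linarith)
      (field_eq_sum A) (slope_field_nonneg hβ0.le A),
    (slope_tendsto hβ0 (hD β hβ) hx0 hx1 A (show (0 : ℝ) < H / 8 by linarith)).eventually
      (eventually_le_nhds (show (0 : ℝ) < δ / 4 by linarith)), eventually_gt_atTop 0] with n hn hs hn0
  intro y
  have : IsProbabilityMeasure (arrLaw n) := by unfold arrLaw; infer_instance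
  have : IsProbabilityMeasure (P150.disorder n) := by unfold P150.disorder; infer_instance
  refine (measureReal_mono (fun g hg => le_trans hg (le_max_left L₀ 1))).trans
    ((hG n β L (δ / 2) hn0 hβ0 (fun z => (hn z).trans ?_) y).trans (le_of_eq (by ring)))
  have h1 : (arrLaw n).real {g | slope β (field A) n g < H / 8} ≤ δ / 4 := by
    refine le_trans (measureReal_mono fun g hg => ?_) hs
    simp only [Set.mem_ofPred_eq] at hg ⊢
    linarith
  have hsq : √(2 * (∑ a ∈ range (2 * A + 1), c a ^ 2 * ((a : ℝ) + 1)) + H) ≤ 3 * √H := by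
    rw [show 3 * √H = √(3 ^ 2 * H) by rw [sqrt_mul (by norm_num), sqrt_sq (by norm_num)]]
    exact sqrt_le_sqrt (by linarith)
  have h2 : 384 * (L + β) / δ ≤ √H := le_sqrt_of_sq_le ((le_max_right _ _).trans hA)
  rw [div_le_iff₀ hδ] at h2
  have hs0 : 0 < √H := sqrt_pos.2 (by linarith)
  have h3 : 4 * (L + β) * √(2 * (∑ a ∈ range (2 * A + 1), c a ^ 2 * ((a : ℝ) + 1)) + H) / (H / 8) ≤ δ / 4 := by
    rw [div_le_iff₀ (by linarith)]
    have h4 := mul_le_mul_of_nonneg_left hsq (show 0 ≤ 4 * (L + β) by linarith)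
    have h5 := mul_le_mul_of_nonneg_right h2 hs0.le
    nlinarith [mul_self_sqrt (show 0 ≤ H by linarith)]
  linarith

end Vale.Agent.P146
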