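import Vale.Agent.P146.Pins
import Vale.Agent.P166.Gibbs

/-!
# P146: interfaces for fluctuations that diverge in law
-/

open MeasureTheory ProbabilityTheory Real Filter Topology Finset Polynomial

namespace Vale.Agent.P146

/-- The derivative of the free energy along a test field, per unit: `β / 2 ⟨s, p(M) s⟩ / n`. -/
noncomputable def slope (β : ℝ) (p : Polynomial ℝ) (n : ℕ) (A : Fin n × Fin n → ℝ) : ℝ :=
  β / 2 * (P166.avgQ β (fun x => quad (goe n A) x) (fun x => quad (aeval (goe n A) p) x) / n)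

/-- The free energy of the GOE matrix. -/
noncomputable def goeLogZ (β : ℝ) (n : ℕ) (A : Fin n × Fin n → ℝ) : ℝ :=
  log (∑ x, exp (β / 2 * quad (goe n A) x))

/-- A nonnegative slope that is at least `G` makes every short interval unlikely. -/
def TailStmt : Prop :=
  ∀ (β L G ε : ℝ) (J : ℕ) (c : ℕ → ℝ) (p : Polynomial ℝ), 0 < β → 0 < L → 0 < G → 0 < ε →
    p = ∑ a ∈ range J, Polynomial.C (c a) * cheb a →
    (∀ (n : ℕ) (A : Fin n × Fin n → ℝ), 0 ≤ slope β p n A) → ∀ᶠ n in atTop, ∀ x : ℝ,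
      (arrLaw n).real {A | |goeLogZ β n A - x| ≤ L} ≤
        4 * L * √(2 * (∑ a ∈ range J, c a ^ 2 * (a + 1)) + ε) / G + (arrLaw n).real {A | slope β p n A < G}

/-- Removing the diagonal costs a bounded shift. -/
def DiagStmt : Prop :=
  ∀ (n : ℕ) (β L δ : ℝ), 0 < n → 0 < β →
    (∀ y : ℝ, (arrLaw n).real {A | |goeLogZ β n A - y| ≤ L + β} ≤ δ) →
      ∀ x : ℝ, (P150.disorder n).real {g | |freeEnergy n β g - x| ≤ L} ≤ 2 * δ

end Vale.Agent.P146
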