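import Vale.Agent.P146.Anti.Pins
import Vale.Agent.P146.GMean
import Vale.Agent.P146.Goe.Main

/-!
# P146: the pressure and the slope of the test field in probability

The law of the matrix is invariant, so the variational limit in Haar probability holds in GOE
probability; by the tangent inequality the slope along the test field is large with high probability.
-/

open MeasureTheory Real Filter Topology Finset Matrix Polynomial
open scoped ENNReal

namespace Vale.Agent.P146

open Goe (pressM pRot Good lamG)
open P150 (stdPi)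
open P166 (Admissible IsHaarOrth IsOrth press exists_isHaarOrth)
open Vale.Agent.P157.Rsb (IsPath vOf)

/-- In probability the pressure of a polynomial in the matrix has the variational limit. -/
theorem pressM_tendsto {β b l : ℝ} (f : ℝ[X]) (hb : ∀ t ∈ Set.Icc (-2 : ℝ) 2, f.eval t ≤ b)
    (hl : ∀ lam : ∀ N, Fin N → ℝ, Admissible (semi.map f.eval) b lam →
      ∀ m : ∀ N, Measure (Fin N → Fin N → ℝ), (∀ N, IsHaarOrth (m N)) →
        Tendsto (fun N => ∫⁻ U, ENNReal.ofReal |press β (lam N) U - l| ∂m N) atTop (𝓝 0))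
    {η : ℝ} (hη : 0 < η) :
    Tendsto (fun N => (arrLaw N).real {g | η ≤ |pressM β (aeval (goe N g) f) - l|}) atTop (𝓝 0) := by
  have hΨ : ∀ lam : ∀ N, Fin N → ℝ, Admissible (semi.map f.eval) b lam →
      ∀ m : ∀ N, Measure (Fin N → Fin N → ℝ), (∀ N, IsHaarOrth (m N)) →
        Tendsto (fun N => (m N).real {U | η ≤ |press β (lam N) U - l|}) atTop (𝓝 0) := by
    intro lam hlam m hm
    have h0 : Tendsto (fun N => (m N) {U | η ≤ |press β (lam N) U - l|}) atTop (𝓝 0) := by
      have hd := ENNReal.Tendsto.div_const (hl lam hlam m hm)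
        (Or.inr (ENNReal.ofReal_pos.2 hη).ne' : (0 : ℝ≥0∞) ≠ 0 ∨ ENNReal.ofReal η ≠ 0)
      rw [ENNReal.zero_div] at hd
      refine tendsto_of_tendsto_of_tendsto_of_le_of_le tendsto_const_nhds hd (fun N => zero_le) fun N => ?_
      refine le_trans (measure_mono fun U hU => ?_) (meas_ge_le_lintegral_div
        (((P166.continuous_press (β := β) (lam N)).sub continuous_const).abs.measurable.ennreal_ofReal.aemeasurable)
        (ENNReal.ofReal_pos.2 hη).ne' ENNReal.ofReal_ne_top)
      exact ENNReal.ofReal_le_ofReal hU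
    simpa [measureReal_def, Function.comp_def] using (ENNReal.tendsto_toReal ENNReal.zero_ne_top).comp h0
  refine Metric.tendsto_nhds.2 fun δ hδ => ?_
  obtain ⟨k, hk⟩ := Goe.exists_good_uniform_of f (l := 0)
    (fun _ x m => m.real {U | η ≤ |press β x U - l|}) hb hΨ (half_pos hδ)
  obtain ⟨C, -, hbad⟩ := Goe.exists_bad_le k
  filter_upwards [hk, hbad, (tendsto_const_nhds.div_atTop (tendsto_natCast_atTop_atTop (R := ℝ))).eventually
    (eventually_lt_nhds (half_pos hδ) : ∀ᶠ t in 𝓝 (0 : ℝ), t < δ / 2) (f := fun N : ℕ => C / (N : ℝ))]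
    with N hkN hbN hCN
  obtain ⟨m, hm⟩ := exists_isHaarOrth N
  have := hm.1
  rw [Real.dist_eq, sub_zero, abs_of_nonneg measureReal_nonneg]
  set P := stdPi (Fin N × Fin N)
  set E := {g : Fin N × Fin N → ℝ | η ≤ |pressM β (aeval (goe N g) f) - l|}
  set S := {z : (Fin N × Fin N → ℝ) × (Fin N → Fin N → ℝ) | η ≤ |pRot β f z - l|}
  have hS : MeasurableSet S :=
    (isClosed_le continuous_const ((Goe.continuous_pRot β f).sub continuous_const).abs).measurableSet
  have hEc : Continuous fun g : Fin N × Fin N → ℝ => pressM β (aeval (goe N g) f) := by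
    refine ((Goe.continuous_pRot (N := N) β f).comp (continuous_id.prodMk
      (continuous_const (y := fun i j => (1 : Matrix (Fin N) (Fin N) ℝ) i j)))).congr fun g => ?_
    simp only [Goe.pRot, Function.comp_apply, id_eq]
    rw [show Matrix.of (fun i j => (1 : Matrix (Fin N) (Fin N) ℝ) i j) = 1 from rfl,
      transpose_one, one_mul, mul_one]
  have hE : MeasurableSet E :=
    (isClosed_le continuous_const (hEc.sub continuous_const).abs).measurableSet
  have h1 : (P.prod m) S = P E := by
    have h : ∀ᵐ U ∂m, P ((fun g => (g, U)) ⁻¹' S) = P E := hm.2.1.mono fun U hU => by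
      obtain ⟨h1, h2⟩ := Goe.orth_matrix hU
      have hc : ∀ g, pRot β f (g, U) = pressM β (aeval (goe N (Goe.conjArr U g)) f) := fun g => by
        rw [Goe.goe_conjArr, Goe.aeval_conj h1 h2]; rfl
      rw [← (Goe.mp_conjArr hU).measure_preimage hE.nullMeasurableSet]
      congr 1
      ext g
      simp only [S, E, Set.mem_preimage, Set.mem_ofPred_eq, hc]
    rw [Measure.prod_apply_symm hS, lintegral_congr_ae h, lintegral_const, measure_univ, mul_one]
  have h2 : ∀ g, m (Prod.mk g ⁻¹' S) = m {U | η ≤ |press β (fun i => f.eval (lamG g i)) U - l|} := fun g => by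
    obtain ⟨V, hV1, hV2, hV3⟩ := Goe.exists_spectral g
    have hV : IsOrth (fun i j => V i j) := by
      rw [P166.isOrth_iff]
      exact hV1
    have hT : MeasurableSet {U | η ≤ |press β (fun i => f.eval (lamG g i)) U - l|} :=
      (isClosed_le (f := fun _ : Fin N → Fin N → ℝ => η)
        (g := fun U => |press β (fun i => f.eval (lamG g i)) U - l|) continuous_const
        ((P166.continuous_press (β := β) fun i => f.eval (lamG g i)).sub continuous_const).abs).measurableSet
    conv_rhs => rw [← hm.2.2 _ hV, Measure.map_apply (P166.continuous_mul _).measurable hT]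
    congr 1
    ext U
    simp only [S, Set.mem_preimage, Set.mem_ofPred_eq]
    have e : pRot β f (g, U) = press β (fun i => f.eval (lamG g i)) (P166.mul (fun i j => V i j) U) := by
      simp only [Goe.pRot, hV3, Goe.aeval_conj hV1 hV2, Goe.aeval_diag]
      rw [← Goe.press_eq]
      congr 1
      rw [P166.mul_eq_matrix, transpose_mul]
      simp only [mul_assoc]
      rfl
    rw [e]
  set Bad := toMeasurable P {g | ¬ Good k (lamG g)}
  have hBad : MeasurableSet Bad := measurableSet_toMeasurable _ _
  have h3 : ∀ g, m (Prod.mk g ⁻¹' S) ≤ ENNReal.ofReal (δ / 2) + Bad.indicator 1 g := fun g => by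
    by_cases hg : Good k (lamG g)
    · refine le_add_of_le_of_nonneg ?_ zero_le
      rw [h2, ← ofReal_measureReal]
      refine ENNReal.ofReal_le_ofReal ?_
      have := hkN _ hg m hm
      rw [sub_zero, abs_of_nonneg measureReal_nonneg] at this
      exact this
    · refine le_add_of_nonneg_of_le zero_le ?_
      rw [Set.indicator_of_mem (subset_toMeasurable P {g | ¬ Good k (lamG g)} hg)]
      exact prob_le_one
  have h4 : P E ≤ ENNReal.ofReal (δ / 2) + P Bad := by
    rw [← h1, Measure.prod_apply hS]
    refine (lintegral_mono h3).trans_eq ?_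
    rw [lintegral_add_left measurable_const, lintegral_const, measure_univ, mul_one,
      lintegral_indicator_one hBad]
  have h5 : P.real E ≤ δ / 2 + P.real Bad := by
    have := ENNReal.toReal_mono (ENNReal.add_ne_top.2 ⟨ENNReal.ofReal_ne_top, measure_ne_top _ _⟩) h4
    rwa [ENNReal.toReal_add ENNReal.ofReal_ne_top (measure_ne_top _ _),
      ENNReal.toReal_ofReal (half_pos hδ).le] at this
  have h6 : P.real Bad ≤ C / N := by
    rw [measureReal_def, measure_toMeasurable]; exact hbN
  show P.real E < δ
  linarith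

/-- The test field has nonnegative slope. -/
theorem slope_field_nonneg {β : ℝ} (hβ : 0 ≤ β) (A n : ℕ) (g : Fin n × Fin n → ℝ) :
    0 ≤ slope β (field A) n g := by
  obtain ⟨V, h1, h2, h3⟩ := Goe.exists_spectral g
  have hq : ∀ x, 0 ≤ quad (aeval (goe n g) (field A)) x := fun x => by
    rw [h3, Goe.aeval_conj h1 h2, Goe.aeval_diag]
    have := Goe.quad_conj_diag (fun i j => V i j) (fun i => (field A).eval (lamG g i)) x
    exact this ▸ sum_nonneg fun i _ => mul_nonneg (field_nonneg A _) (sq_nonneg _)
  unfold slope P166.avgQ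
  exact mul_nonneg (by linarith) (div_nonneg (div_nonneg
    (sum_nonneg fun x _ => mul_nonneg (exp_pos _).le (hq x)) (sum_nonneg fun x _ => (exp_pos _).le))
    (Nat.cast_nonneg n))

/-- With high probability the slope along the test field exceeds half the transform, less `ε`. -/
theorem slope_tendsto {β : ℝ} (hβ : 0 < β)
    (hD : ∀ δ : ℝ, 0 < δ → ∃ k₀ : ℕ, ∀ k : ℕ, k₀ ≤ k → ∀ q : ℕ → ℝ, IsPath k q →
      ∃ q', IsPath k q' ∧ valueSemi β k q' ≤ valueSemi β k q ∧ 1 - δ ≤ β * vOf k q' 0)
    {x : ℝ} (hx0 : 0 < x) (hx1 : x < 1) (A : ℕ) {ε : ℝ} (hε : 0 < ε) :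
    Tendsto (fun n => (arrLaw n).real {g | slope β (field A) n g
      < 1 / 2 * (∑ i ∈ range (A + 1), x ^ (2 * i + 1) / ((i : ℝ) + 1)) - ε}) atTop (𝓝 0) := by
  obtain ⟨u, b, l0, lu, hu, hgap, -, h0, -, hbu, hlu⟩ := exists_gap hβ hD hx0 hx1 A (half_pos hε)
  set T := ∑ i ∈ range (A + 1), x ^ (2 * i + 1) / ((i : ℝ) + 1)
  set η := u * ε / 4 with hη
  have hη0 : 0 < η := by positivity
  have e0 := pressM_tendsto (X : ℝ[X]) (b := 2) (fun t ht => by simpa using ht.2)
    (fun lam hlam m hm => (h0 lam hlam m hm).2) hη0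
  have eu := pressM_tendsto _ hbu (fun lam hlam m hm => (hlu lam hlam m hm).2) hη0
  refine squeeze_zero (fun n => measureReal_nonneg) (fun n => ?_) (by simpa using e0.add eu)
  have : IsProbabilityMeasure (arrLaw n) := by unfold arrLaw; infer_instance
  refine (measureReal_mono (fun g hg => ?_) (measure_ne_top _ _)).trans (measureReal_union_le _ _)
  simp only [Set.mem_ofPred_eq] at hg
  by_contra hc
  simp only [Set.mem_union, Set.mem_ofPred_eq, not_or, not_le, abs_lt] at hc
  have ht := pressQ_sub_le (β := β) u (field A) g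
  change pressM β (aeval (goe n g) X) - pressM β (aeval (goe n g) (X - Polynomial.C u * field A))
    ≤ u * slope β (field A) n g at ht
  simp only [map_sub, map_mul, aeval_X, aeval_C] at ht
  have := mul_lt_mul_of_pos_left hg hu
  linarith [hc.1.1, hc.1.2, hc.2.1, hc.2.2]

end Vale.Agent.P146
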