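import Vale.Agent.P146.Anti.Pins
import Vale.Agent.P146.Proj.Var
import Mathlib.Analysis.SpecialFunctions.Trigonometric.ArctanDeriv

/-!
# P146: short intervals are unlikely

Integrating `arctan ((F - x) / L)` by parts against the test variable bounds the mass of the event
where `F` is within `L` of `x` and the slope is large by the norm of the test variable.
-/

open MeasureTheory ProbabilityTheory Real Finset Filter Topology Matrix
open Polynomial.Chebyshev (S)

namespace Vale.Agent.P146

open P150 (stdPi)
open Proj (Ix goeF cor avgQuad rm gL test lead pmean bnd)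

variable {n : ℕ}

/-- Integration by parts of a bounded function of the free energy against the test variable. -/
theorem ibp_comp (β : ℝ) (p : Polynomial ℝ) {h h' : ℝ → ℝ} {C B : ℝ} (hd : ∀ y, HasDerivAt h (h' y) y)
    (hm : Measurable h') (hC : ∀ y, |h y| ≤ C) (hB : ∀ y, |h' y| ≤ B) :
    ∫ g, h (goeF β g) * MvPolynomial.eval g (gL (test n p)) ∂stdPi (Ix n)
      = ∫ g : Ix n → ℝ, h' (goeF β g) * (β / n * avgQuad β g (rm g p)) ∂stdPi (Ix n) := by
  have hB0 : 0 ≤ B := (abs_nonneg _).trans (hB 0)
  have hC0 : 0 ≤ C := (abs_nonneg _).trans (hC 0)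
  have hh : Measurable h := (continuous_iff_continuousAt.2 fun y => (hd y).continuousAt).measurable
  set k := β / √(2 * n)
  have hm' : ∀ e, Measurable fun g : Ix n → ℝ => h' (goeF β g) * (k * cor β g e) := fun e =>
    (hm.comp (Proj.measurable_goeF β)).mul ((Proj.measurable_cor β e).const_mul _)
  have hb : ∀ e (g : Ix n → ℝ), |h' (goeF β g) * (k * cor β g e)| ≤ B * |k| := fun e g => by
    rw [abs_mul, abs_mul]
    exact mul_le_mul (hB _) (mul_le_of_le_one_right (abs_nonneg _) (Proj.abs_cor_le β g e))
      (by positivity) hB0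
  rw [Proj.integral_mul_gL (F := fun g => h (goeF β g)) (F' := fun e g => h' (goeF β g) * (k * cor β g e))
    (hh.comp (Proj.measurable_goeF β)) hm' (C := C)
    (fun g => (hC _).trans (le_mul_of_one_le_right hC0 (by simp; positivity))) hb
    (fun e g x => (hd _).comp x (Proj.hasDerivAt_goeF β e g x))]
  simp only [Proj.eval_grad]
  have hi : ∀ e : Ix n, Integrable (fun g : Ix n → ℝ =>
      h' (goeF β g) * (k * cor β g e) * (2 * (√(2 * n))⁻¹ * rm g p e.1 e.2)) (stdPi (Ix n)) := fun e => by
    refine ((Proj.integrable_peval (Proj.pm n p e.1 e.2)).const_mul (2 * (√(2 * n))⁻¹)).bdd_mul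
      (c := B * |k|) (hm' e).aestronglyMeasurable
      (ae_of_all _ fun g => by rw [Real.norm_eq_abs]; exact hb e g) |>.congr (ae_of_all _ fun g => ?_)
    simp only [Proj.eval_pm]
  rw [← integral_finsetSum _ fun e _ => hi e]
  refine integral_congr_ae (ae_of_all _ fun g => ?_)
  simp only [avgQuad, mul_sum]
  refine sum_congr rfl fun e _ => ?_
  have : √(2 * (n : ℝ)) ^ 2 = 2 * n := Real.sq_sqrt (by positivity)
  calc h' (goeF β g) * (k * cor β g e) * (2 * (√(2 * n))⁻¹ * rm g p e.1 e.2)
      = h' (goeF β g) * (2 * β / √(2 * n) ^ 2 * (cor β g e * rm g p e.1 e.2)) := by ring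
    _ = _ := by rw [this, mul_div_mul_left _ _ (two_ne_zero)]

theorem two_slope (β : ℝ) (p : Polynomial ℝ) (g : Ix n → ℝ) :
    β / n * avgQuad β g (rm g p) = 2 * slope β p n g := by
  rw [Proj.avgQuad_eq, slope, P166.avgQ]
  simp only [Proj.expo_eq_quad]
  show β / n * ((∑ s, exp (β / 2 * quad (goe n g) s) * quad (Polynomial.aeval (goe n g) p) s) / _) = _
  ring

theorem goeLogZ_eq (β : ℝ) (g : Ix n → ℝ) : goeLogZ β n g = goeF β g := rfl

theorem integrable_slope (β : ℝ) (p : Polynomial ℝ) :
    Integrable (fun g : Ix n → ℝ => slope β p n g) (stdPi (Ix n)) :=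
  (((Proj.integrable_avgQuad β p).const_mul (β / n)).const_mul (1 / 2)).congr
    (ae_of_all _ fun g => by simp only [two_slope]; ring)

theorem tail_bound (β : ℝ) {L G : ℝ} (hL : 0 < L) (hG : 0 < G) (p : Polynomial ℝ)
    (hp : ∀ g : Ix n → ℝ, 0 ≤ slope β p n g) {t : ℝ} (ht : 0 < t)
    (hB : pmean (gL (test n p) * gL (test n p)) ≤ t ^ 2) (x : ℝ) :
    (stdPi (Ix n)).real {g : Ix n → ℝ | |goeF β g - x| ≤ L}
      ≤ 2 * L * t / G + (stdPi (Ix n)).real {g : Ix n → ℝ | slope β p n g < G} := by
  set E : Set (Ix n → ℝ) := {g | |goeF β g - x| ≤ L ∧ G ≤ slope β p n g} with hE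
  have hs := integrable_slope (n := n) β p
  have hFm := Proj.measurable_goeF (n := n) β
  have hEm : NullMeasurableSet E (stdPi (Ix n)) := by
    have h1 : NullMeasurableSet {g : Ix n → ℝ | |goeF β g - x| ≤ L} (stdPi (Ix n)) :=
      (measurableSet_le (hFm.sub_const x).abs measurable_const).nullMeasurableSet
    exact h1.inter (nullMeasurableSet_le aemeasurable_const hs.aemeasurable)
  set h : ℝ → ℝ := fun y => arctan ((y - x) / L)
  set h' : ℝ → ℝ := fun y => 1 / (1 + ((y - x) / L) ^ 2) * (1 / L) with hh'
  have hd : ∀ y, HasDerivAt h (h' y) y := fun y => (((hasDerivAt_id' y).sub_const x).div_const L).arctan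
  have hC : ∀ y, |h y| ≤ 2 := fun y => abs_le.2 ⟨by
    linarith [neg_pi_div_two_lt_arctan ((y - x) / L), pi_lt_four], by
    linarith [arctan_lt_pi_div_two ((y - x) / L), pi_lt_four]⟩
  have hB' : ∀ y, |h' y| ≤ 1 / L := fun y => by
    rw [hh', abs_of_nonneg (by positivity)]
    refine mul_le_of_le_one_left (by positivity) ?_
    rw [div_le_one (by positivity)]
    nlinarith [sq_nonneg ((y - x) / L)]
  have hm : Measurable h' := by rw [hh']; fun_prop
  have hw : Integrable (fun g : Ix n → ℝ => h' (goeF β g) * (2 * slope β p n g)) (stdPi (Ix n)) :=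
    (hs.const_mul 2).bdd_mul (c := 1 / L) (hm.comp hFm).aestronglyMeasurable
      (ae_of_all _ fun g => by rw [Real.norm_eq_abs]; exact hB' _)
  have key : G / L * (stdPi (Ix n)).real E ≤ ∫ g : Ix n → ℝ, h' (goeF β g) * (2 * slope β p n g) ∂stdPi (Ix n) := by
    rw [mul_comm, ← smul_eq_mul, ← setIntegral_const, ← integral_indicator₀ hEm]
    refine integral_mono ((integrable_const _).indicator₀ hEm) hw fun g => ?_
    have hnn : 0 ≤ h' (goeF β g) := by rw [hh']; positivity
    by_cases hg : g ∈ E
    · rw [Set.indicator_of_mem hg]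
      have h1 : ((goeF β g - x) / L) ^ 2 ≤ 1 := by
        rw [sq_le_one_iff_abs_le_one, abs_div, abs_of_pos hL, div_le_one hL]
        exact hg.1
      have h2 : 1 / 2 * (1 / L) ≤ h' (goeF β g) := by
        rw [hh']
        exact mul_le_mul_of_nonneg_right (one_div_le_one_div_of_le (by positivity) (by linarith))
          (by positivity)
      calc G / L = 1 / 2 * (1 / L) * (2 * G) := by ring
        _ ≤ h' (goeF β g) * (2 * slope β p n g) :=
          mul_le_mul h2 (by linarith [hg.2]) (by linarith) hnn
    · rw [Set.indicator_of_notMem hg]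
      exact mul_nonneg hnn (by linarith [hp g])
  have hbound : ∫ g : Ix n → ℝ, h' (goeF β g) * (2 * slope β p n g) ∂stdPi (Ix n) ≤ 2 * t := by
    have e := ibp_comp (n := n) β p hd hm hC hB'
    simp only [two_slope] at e
    rw [← e]
    set G2 := fun g : Ix n → ℝ => MvPolynomial.eval g (gL (test n p) * gL (test n p))
    have hG2 : Integrable G2 (stdPi (Ix n)) := Proj.integrable_peval _
    have hhm : Measurable h := by unfold h; fun_prop
    have hi : Integrable (fun g : Ix n → ℝ => h (goeF β g) * MvPolynomial.eval g (gL (test n p))) (stdPi (Ix n)) :=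
      (Proj.integrable_peval _).bdd_mul (c := 2) (hhm.comp hFm).aestronglyMeasurable
        (ae_of_all _ fun g => by rw [Real.norm_eq_abs]; exact hC _)
    refine (integral_mono hi (show Integrable (fun g => G2 g / t + t) (stdPi (Ix n)) from (hG2.div_const t).add (integrable_const t)) fun g => ?_).trans ?_
    · simp only [G2, map_mul]
      rw [div_add' _ _ _ ht.ne', le_div_iff₀ ht]
      set u := MvPolynomial.eval g (gL (test n p))
      have h1 : h (goeF β g) * u ≤ 2 * |u| := (le_abs_self _).trans (by
        rw [abs_mul]; exact mul_le_mul_of_nonneg_right (hC _) (abs_nonneg _))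
      nlinarith [sq_nonneg (|u| - t), abs_mul_abs_self u]
    · rw [integral_add (hG2.div_const t) (integrable_const t), integral_div]
      have : pmean (gL (test n p) * gL (test n p)) / t ≤ t := by rw [div_le_iff₀ ht]; linarith
      simp only [integral_const, probReal_univ, smul_eq_mul, one_mul]
      show pmean (gL (test n p) * gL (test n p)) / t + t ≤ 2 * t
      linarith
  have hEle : (stdPi (Ix n)).real E ≤ 2 * L * t / G := by
    rw [le_div_iff₀ hG]
    have := key.trans hbound
    rw [div_mul_eq_mul_div, div_le_iff₀ hL] at this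
    linarith
  refine le_trans (le_trans (measureReal_mono (s₂ := E ∪ {g : Ix n → ℝ | slope β p n g < G}) ?_)
    (measureReal_union_le _ _)) (add_le_add hEle le_rfl)
  intro g hg
  rcases lt_or_ge (slope β p n g) G with h1 | h1
  · exact Or.inr h1
  · exact Or.inl ⟨hg, h1⟩

theorem tailStmt : TailStmt := by
  intro β L G ε J c p _ hL hG hε hpc hp
  have hlead : p = lead J c := hpc
  filter_upwards [(Proj.bnd_tendsto Proj.semiFun (fun m => Proj.integral_S_semi m)
    (fun p => Goe.tendsto_trP p) Proj.tendsto_trP_mul J c).eventually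
      (gt_mem_nhds (lt_add_of_pos_right _ hε))] with n hn x
  have hsum : ∑ m ∈ range J, ((m : ℝ) + 1) * c m ^ 2 = ∑ a ∈ range J, c a ^ 2 * ((a : ℝ) + 1) :=
    sum_congr rfl fun a _ => mul_comm _ _
  rw [hsum] at hn
  have hpos : 0 < 2 * (∑ a ∈ range J, c a ^ 2 * ((a : ℝ) + 1)) + ε := by positivity
  have h := tail_bound (n := n) β hL hG p (hp n) (sqrt_pos.2 hpos)
    (by rw [sq_sqrt hpos.le, hlead, Proj.pmean_sq_eq]; exact hn.le) x
  refine h.trans (add_le_add ?_ le_rfl)
  rw [div_le_div_iff_of_pos_right hG]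
  nlinarith [mul_nonneg hL.le (sqrt_nonneg (2 * (∑ a ∈ range J, c a ^ 2 * ((a : ℝ) + 1)) + ε))]

theorem diagStmt : DiagStmt := by
  intro n β L δ hn hβ hδ x
  have hmean : ∀ i : Fin n, ∫ d : Fin n → ℝ, d i ∂stdPi (Fin n) = 0 := fun i => by
    have h := Proj.pmean_X_mul i (1 : MvPolynomial (Fin n) ℝ)
    simpa [pmean] using h
  set k := β / √(2 * n)
  set T : (Fin n → ℝ) → ℝ := fun d => k * ∑ i, d i with hT
  have hTm : Measurable T := by rw [hT]; fun_prop
  have hi : ∀ i, Integrable (fun d : Fin n → ℝ => d i) (stdPi (Fin n)) := fun i =>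
    (P150.measurePreserving_coord i).integrable_comp_of_integrable P150.integrable_id_std
  have hT0 : ∫ d, T d ∂stdPi (Fin n) = 0 := by
    simp only [hT, integral_const_mul, integral_finsetSum _ fun i _ => hi i, hmean, sum_const_zero, mul_zero]
  set U : Set (Fin n → ℝ) := {d | β ≤ |T d|}
  have hU : (stdPi (Fin n)).real U ≤ 1 / 2 := by
    have h := meas_ge_le_variance_div_sq (Proj.memLp_lin (n := n) k) hβ
    simp only [show (fun d : Fin n → ℝ => k * ∑ i, d i) = T from rfl, hT0, sub_zero] at h
    rw [show variance T (stdPi (Fin n)) = k ^ 2 * n from Proj.variance_lin k] at h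
    have e : k ^ 2 * n / β ^ 2 = 1 / 2 := by
      rw [show k ^ 2 = β ^ 2 / (2 * n) by rw [div_pow, sq_sqrt (by positivity)]]
      field_simp
    rw [e] at h
    exact ENNReal.toReal_le_of_le_ofReal (by norm_num) h
  set Q := {g : P150.Edge n → ℝ | |freeEnergy n β g - x| ≤ L}
  have hfm : Measurable (freeEnergy n β) := by
    unfold freeEnergy P150.energy
    exact Real.measurable_log.comp (Finset.measurable_sum _ fun x _ => Real.measurable_exp.comp
      (measurable_const.mul ((Finset.measurable_sum _ fun e _ =>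
        (measurable_pi_apply e).mul_const _).div_const _)))
  have hQ : MeasurableSet Q := measurableSet_le (hfm.sub_const x).abs measurable_const
  have hUm : MeasurableSet U := measurableSet_le measurable_const hTm.abs
  have : IsProbabilityMeasure (P150.disorder n) := by unfold P150.disorder; infer_instance
  have hprod : (arrLaw n).real (Proj.split n ⁻¹' (Q ×ˢ Uᶜ))
      = (P150.disorder n).real Q * (stdPi (Fin n)).real Uᶜ := by
    rw [← map_measureReal_apply (Proj.mp_split n).measurable (hQ.prod hUm.compl),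
      (Proj.mp_split n).map_eq, measureReal_prod_prod]
  have hsub : Proj.split n ⁻¹' (Q ×ˢ Uᶜ) ⊆ {A | |goeLogZ β n A - x| ≤ L + β} := by
    rintro A ⟨h1, h2⟩
    have h1 : |freeEnergy n β (Proj.split n A).1 - x| ≤ L := h1
    have h2 : |T fun i => A (i, i)| < β := not_le.1 h2
    have e : goeLogZ β n A = freeEnergy n β (Proj.split n A).1 + T fun i => A (i, i) := by
      simp only [goeLogZ, Proj.exponent_split, Real.exp_add, ← sum_mul, freeEnergy, hT]
      rw [Real.log_mul (sum_pos (fun _ _ => Real.exp_pos _) univ_nonempty).ne' (Real.exp_pos _).ne', Real.log_exp]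
    show |goeLogZ β n A - x| ≤ L + β
    rw [e, add_sub_right_comm]
    exact (abs_add_le _ _).trans (by linarith)
  have : IsProbabilityMeasure (arrLaw n) := by unfold arrLaw; infer_instance
  have h := ((measureReal_mono hsub).trans (hδ x))
  rw [hprod, measureReal_compl hUm, probReal_univ] at h
  nlinarith [mul_le_mul_of_nonneg_left (show 1 / 2 ≤ 1 - (stdPi (Fin n)).real U by linarith)
    (measureReal_nonneg (μ := P150.disorder n) (s := Q))]

end Vale.Agent.P146
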